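import Vale.Agent.P042U.Main

namespace Vale.Agent.Results.P042.PowerSaving

theorem result (h : Polynomial ℤ) (hdeg : 2 ≤ h.natDegree) (hlc : 0 < h.leadingCoeff)
    (hint : ∀ q : ℕ, 1 ≤ q → ∃ t : ℤ, (q : ℤ) ∣ h.eval t) :
    ∃ c : ℝ, 0 < c ∧ ∃ C : ℝ, ∀ (N : ℕ) (A : Finset ℕ), A ⊆ Finset.Icc 1 N →
      (∀ a ∈ A, ∀ b ∈ A, ∀ n : ℕ, 1 ≤ n → (a : ℤ) - b = h.eval (n : ℤ) → h.eval (n : ℤ) = 0) →
      (A.card : ℝ) ≤ C * (N : ℝ) ^ (1 - c) :=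
  Vale.Agent.P042U.main h hdeg hlc hint

end Vale.Agent.Results.P042.PowerSaving
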